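import Crest.Agent.X212.Chr96.Rl
import Crest.Agent.X212.Sb84.Defs

/-!
# Row 212, SB-CHR (helper96): the leaf `Sb84.ChrStmt`
-/

set_option autoImplicit false

namespace Crest.Agent.X212.Chr96

variable {κ lam : Type} [Fintype κ] [Fintype lam] [DecidableEq lam] (Lm : G75.LM κ lam)

/-- **LEAF CHR** -/
theorem chr : Sb84.ChrStmt Lm := fun _ _ _ _ _ _ _ _ _ _ _ hy ht hc h0 he hp hπ _ h =>
  chr0 hy ht hc h0 he hp hπ fun K a k1 k2 =>
    h K a k1 (k2.trans (Set.inter_subset_inter_right _ Set.subset_union_left))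

end Crest.Agent.X212.Chr96
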