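import Crest.Agent.X212.Loc8.Rl
import Crest.Agent.X212.Num57.Lt
import Crest.Agent.X212.Line51.Exl
import Crest.Agent.X212.G75.Tm
import Crest.Agent.X212.Br55.Th

/-!
# Row 212, SB-CHR (helper96): marked test lines are trivial off a compact set
-/

set_option autoImplicit false
set_option linter.unusedSectionVars false
noncomputable section
open scoped Manifold ContDiff Topology Matrix
open Set Function Filter
open Crest.Agent.R208.F (Ext)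

namespace Crest.Agent.X212.Chr96
open M G75 Line51
open Dr59 (Cs Ex HZ Mp)
open Loc8 (RL)
open Cyf70 (IC)

variable {X X' : Mf 4} {l : Type} [Fintype l] [DecidableEq l]

/-- all lines on `Y` are trivial -/
def Zh (Y : Mf 3) : Prop := ∀ (l : Type) [Fintype l] [DecidableEq l] (p : Y.M → Matrix l l ℂ),
  Ln.On Y.I ⟨p, 0⟩ univ → ∃ u : _ → Matrix l Unit ℂ, Uni Y.I 1 p u univ

/-- the line is trivial on the band -/
def Tv (B : Band X) (p : X.M → Matrix l l ℂ) : Prop :=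
  ∃ s : X.M → Matrix l Unit ℂ, Uni X.I (fun _ => 1) p s (B.slab (Ioo (-3) 3))

theorem on_cp {Y Y' : Mf 3} {p : Y'.M → Matrix l l ℂ} (h : Ln.On Y'.I ⟨p, 0⟩ univ) {f : Y.M → Y'.M}
    (hf : ContMDiff Y.I Y'.I ∞ f) : Ln.On Y.I ⟨fun y => p (f y), 0⟩ univ :=
  ⟨fun y _ => (h.sm _ trivial).comp (hf y), fun _ _ => h.prj _ trivial, fun _ _ => h.tr _ trivial,
    Dr59.Sm.zero, Dr59.Dg.zero⟩

theorem Zh.iso {Y Y' : Mf 3} (h : Zh Y) (g : Y.M ≃ₘ^∞⟮Y.I, Y'.I⟯ Y'.M) : Zh Y' := fun l _ _ p hp => by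
  obtain ⟨u, hu⟩ := h l _ (on_cp hp g.contMDiff)
  have k := hu.comp (.of_contMDiff g.symm.contMDiff (mapsTo_univ _ univ))
  exact ⟨_, k.sm, fun x hx => by simpa using k.iso x hx⟩

theorem hz_iso {Y Y' : Mf 3} {k : ℕ} (h : HZ Y.I k (univ : Set Y.M))
    (g : Y.M ≃ₘ^∞⟮Y.I, Y'.I⟯ Y'.M) : HZ Y'.I k (univ : Set Y'.M) := by
  rw [← g.toEquiv.surjective.range_eq, ← image_univ]
  exact (Dr59.hz_oe g.isLocalDiffeomorph g.injective isOpen_univ).2 h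

theorem tv_of {B : Band X} {p : X.M → Matrix l l ℂ} {u : B.Y.M × ℝ → Matrix l Unit ℂ}
    (h : Uni (IC B.Y.I) (fun _ => 1) (fun q => p (B.j q)) u {q | |q.2| ≤ 3}) : Tv B p := by
  have k := (h.mono (V := univ ×ˢ Ioo (-3) 3) fun q h => (abs_lt.2 h.2).le).comp (mp_ji B _)
  refine ⟨_, k.sm, ?_⟩
  rintro _ ⟨q, h, rfl⟩
  simpa only [ji_j] using k.iso _ ⟨q, h, rfl⟩

theorem Zh.tv {B : Band X} (h : Zh B.Y) {p : X.M → Matrix l l ℂ} (hp : Ln.On X.I ⟨p, 0⟩ univ) :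
    Tv B p := by
  have s : ContMDiff B.Y.I X.I ∞ fun y => B.j (y, 0) :=
    B.oe.contMDiff.comp (contMDiff_id.prodMk contMDiff_const)
  obtain ⟨u, hu⟩ := h l (fun y => p (B.j (y, 0))) ⟨fun y _ => (hp.sm _ trivial).comp (s y),
    fun _ _ => hp.prj _ trivial, fun _ _ => hp.tr _ trivial, Dr59.Sm.zero, Dr59.Dg.zero⟩
  obtain ⟨w, hw⟩ := exists_uni_cyl' (L := ⟨fun q => p (B.j q), 0⟩) ⟨fun q _ => (hp.sm _ trivial).comp
    (B.oe.contMDiff q), fun _ _ => hp.prj _ trivial, fun _ _ => hp.tr _ trivial, Dr59.Sm.zero,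
    Dr59.Dg.zero⟩ 3 hu
  exact tv_of hw

theorem hz_rnd {Y : Mf 3} {κ : Type} [Fintype κ] {F : An.Fr Y.I Y.M κ} {θ : Y.M → V4} (h : Round F θ) :
    HZ Y.I 1 (univ : Set Y.M) := by
  refine Dr59.bd_zero.1 (Dr59.Bd.of_prod_left (J := 𝓘(ℝ, ℝ)) isOpen_univ univ_nonempty (Dr59.bd_zero.2
    ((Dr59.hz_oe h.oe.loc h.oe.inj (isOpen_univ.prod isOpen_univ)).1 ?_)))
  convert Dr59.hz_punct (d := 4) (k := 0) (by omega)
  refine Subset.antisymm ?_ fun v hv => ?_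
  · rintro _ ⟨p, -, rfl⟩
    exact smul_ne_zero (Real.exp_pos _).ne' (norm_ne_zero_iff.1 (by rw [h.nrm]; exact one_ne_zero))
  · have h0 := norm_pos_iff.2 hv
    obtain ⟨y, hy⟩ := h.surj (‖v‖⁻¹ • v) (by rw [norm_smul, norm_inv, norm_norm, inv_mul_cancel₀ h0.ne'])
    exact ⟨(y, Real.log ‖v‖), ⟨trivial, trivial⟩, by
      simp only [hy, Real.exp_log h0, smul_inv_smul₀ h0.ne']⟩

variable {A A' A₀ κ : Type} [Fintype A] [Fintype A'] [Fintype A₀] [Fintype κ] {M : Mark X A κ}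
  {M' : Mark X' A' κ}

theorem tv_pin (N : ML M l) {a : A} (h : M.pin a) : Tv (M.bn a) N.p := by
  obtain ⟨p₀, e⟩ := N.cst a h
  have k := N.okY a
  have y : (M.bn a).Y.M := Classical.arbitrary _
  rw [e] at k
  obtain ⟨u, hu⟩ := exists_unit (k.prj y trivial) (k.tr y trivial)
  exact tv_of (Uni.trans ⟨fun _ _ => .const u, fun _ _ => by rw [e]; exact hu⟩ (N.um a).symm)

/-- **a line that is trivial on the boundary bands of a region** -/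
theorem rl_reg {ρ : Reg A} (h : M.sys.IsReg ρ) {p : X.M → Matrix l l ℂ} (hp : Ln.On X.I ⟨p, 0⟩ univ)
    (hz : ∀ a b, ρ a = some b → HZ (M.bn a).Y.I 1 (univ : Set (M.bn a).Y.M) ∧ Tv (M.bn a) p)
    {f : X.M → Ext X.E} (hf : Cs X.I 2 (M.sys.U ρ) f) (hx : Ex X.I (M.sys.U ρ) (Ln.F X.I ⟨p, 0⟩ - f)) :
    ∃ K, IsCompact K ∧ K ⊆ M.sys.U ρ ∧ RL X.I K f := by
  classical
  have := M.cpt
  have ct : ∀ q : A × Bool, Continuous fun x => pm q.2 * (M.bn q.1).s x := fun q =>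
    continuous_const.mul (M.bn q.1).contMDiff_s.continuous
  obtain ⟨ε, hε, ε0, ε3⟩ : ∃ ε : ℝ, (∀ q : A × Bool, ρ q.1 = some q.2 → ∀ x ∈ tsupport f,
      ε ≤ pm q.2 * (M.bn q.1).s x) ∧ ε ∈ Ioo (0 : ℝ) 3 := by
    refine ((eventually_all.2 fun q => eventually_imp_distrib_left.2 fun e => ?_).and
      (Ioo_mem_nhdsGT three_pos)).exists
    obtain ⟨δ, d0, d1⟩ := hf.hc.isCompact.exists_forall_le' (ct q).continuousOn
      fun x hx => (M.bn q.1).mem_sd.1 (hf.sub hx _ _ e)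
    filter_upwards [Ioo_mem_nhdsGT d0] with ε k x hx using k.2.le.trans (d1 x hx)
  let T : Set (A × Bool) := {q | ρ q.1 = some q.2}
  let J : Bool → Set ℝ := fun b => (pm b * ·) ⁻¹' Ioo 0 ε
  let D : A × Bool → Set X.M := fun q => (M.bn q.1).slab (J q.2)
  let K : Set X.M := ⋂ q ∈ T, {x | ε ≤ pm q.2 * (M.bn q.1).s x}
  have oJ : ∀ b, IsOpen (J b) := fun b => isOpen_Ioo.preimage (continuous_const.mul continuous_id)
  have cJ : ∀ b, Convex ℝ (J b) := fun b =>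
    (convex_Ioo 0 ε).is_linear_preimage (f := (pm b * ·)) ⟨mul_add _, fun c x => mul_left_comm _ c x⟩
  have ab : ∀ b r, pm b * r ∈ Ioo 0 ε → |r| < 3 := fun b r k => by
    rw [← one_mul |r|, ← abs_pm b, ← abs_mul, abs_of_pos k.1]; exact k.2.trans ε3
  have oD : ∀ q, IsOpen (D q) := fun q => (M.bn q.1).isOpen_slab (oJ _)
  have dj : T.PairwiseDisjoint D := fun q hq q' hq' e =>
    (h.cell (Sys.mem_bd_of hq) (Sys.mem_bd_of hq') fun k => e (Prod.ext k (Option.some.inj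
      ((hq.out.symm.trans (congrArg ρ k)).trans hq')))).mono (Band.slab_subset _ _) (Band.slab_subset _ _)
  have hK : IsCompact K := (isClosed_biInter fun q _ => isClosed_le continuous_const (ct q)).isCompact
  have sK : K ⊆ M.sys.U ρ := fun x hx a b e =>
    (M.bn a).mem_sd.2 (ε0.trans_le (mem_iInter₂.1 hx (a, b) e))
  have eq : M.sys.U ρ \ K = ⋃ q ∈ T, D q := by
    refine Subset.antisymm (fun x hx => ?_) (iUnion₂_subset ?_)
    · obtain ⟨q, hq, k⟩ : ∃ q ∈ T, pm q.2 * (M.bn q.1).s x < ε := by_contra fun k =>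
        hx.2 (mem_biInter fun q hq => not_lt.1 fun k' => k ⟨q, hq, k'⟩)
      have k' : (M.bn q.1).s x ∈ J q.2 := ⟨(M.bn q.1).mem_sd.1 (hx.1 _ _ hq), k⟩
      obtain ⟨y, hy⟩ := (M.bn q.1).exists_of_abs_s_lt (ab _ _ k')
      exact mem_biUnion hq ⟨_, ⟨trivial, k'⟩, hy⟩
    · rintro q hq _ ⟨z, hz, rfl⟩
      refine ⟨h.adj _ _ hq ⟨⟨z, rfl⟩, (M.bn q.1).j_mem_sd.2 hz.2.1⟩, fun k => ?_⟩
      have k' : ε ≤ _ := mem_iInter₂.1 k q hq
      rw [Band.s_j_of_le _ (ab _ _ hz.2).le] at k'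
      exact k'.not_gt hz.2.2
  choose! s hs using fun (q : A × Bool) (e : q ∈ T) => (hz _ _ e).2
  let t : X.M → Matrix l Unit ℂ := fun x => if k : ∃ q ∈ T, x ∈ D q then s k.choose x else 0
  have ht : ∀ q ∈ T, EqOn t (s q) (D q) := fun q hq x hx => by
    have k : ∃ q ∈ T, x ∈ D q := ⟨q, hq, hx⟩
    rw [← dj.elim_set k.choose_spec.1 hq x k.choose_spec.2 hx]
    exact dif_pos k
  have sb : ∀ q, D q ⊆ (M.bn q.1).slab (Ioo (-3) 3) := fun q =>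
    Band.slab_mono _ fun r k => abs_lt.1 (ab _ _ k)
  refine Loc8.rl_of_ex (L := ⟨p, 0⟩) (s := t) (α := th X.I t + 0) (M.sys.isOpen_U ρ) hK sK
    (hp.mono (subset_univ _)) ⟨⟨fun x hx => ?_, fun x hx => ?_⟩, fun _ _ => rfl⟩ ?_
    ⟨hf.cl, hf.hc, fun x hx => mem_biInter fun q e => hε q e x hx⟩ hx
  · obtain ⟨q, hq, k⟩ := mem_iUnion₂.1 (eq ▸ hx)
    exact ((hs q hq).sm x (sb q k)).congr (eventually_of_mem ((oD q).mem_nhds k) (ht q hq))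
  · obtain ⟨q, hq, k⟩ := mem_iUnion₂.1 (eq ▸ hx)
    rw [ht q hq k]
    exact (hs q hq).iso x (sb q k)
  · rw [eq]
    exact Num57.hz_biUnion (toFinite T) (fun q _ => oD q) dj fun q hq =>
      (Dr59.hz_oe (M.bn q.1).oe.loc (M.bn q.1).oe.inj (isOpen_univ.prod (oJ _))).2
        ((hz _ _ hq).1.prod_convex isOpen_univ (oJ _) (cJ _))

theorem rl_zero {f : X.M → Ext X.E} (hf : Cs X.I 2 ∅ f) : RL X.I ∅ f :=
  ⟨Unit, inferInstance, ⟨fun _ => 1, 0⟩, 1, Loc8.on_const Pj41.Prj.one (by simp) _, Pj41.Prj.one, by simp,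
    fun _ _ => ⟨rfl, rfl⟩, funext fun x => (hf.eq_zero (notMem_empty x)).trans
      (Loc8.F_const Pj41.Prj.one (by simp) x).symm⟩

theorem band_tr (I : MId M M' A₀) {a a' : A₀} {b : Bool}
    (h : (M.sys.w (I.f a)).band ⊆ (M.sys.w (I.f a')).sd b) :
    (M'.sys.w (I.f' a)).band ⊆ (M'.sys.w (I.f' a')).sd b := by
  rintro _ ⟨q, rfl⟩
  have := (I.sd a' b _ (I.sub a ⟨((I.g a).symm q.1, q.2), rfl⟩)).2 (h ⟨_, rfl⟩)
  rwa [I.jj, Diffeomorph.apply_symm_apply] at this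

variable {lam : Type} [Fintype lam] [DecidableEq lam] {Lm : LM κ lam} {y₀ : G75.YD κ lam} {S : Scene Lm}
  {t : TD y₀ S} {R : ℕ} {c : G75.Cn S.L S.A}

/-- **the tests of `Chr` are trivial off a compact set** -/
theorem rl_chr (hy : y₀.OK) (ht : t.OK R c) {e : Finset S.A} (hc : S.M.sys.Cell (↑e ∪ ↑S.fz))
    (hp : ∀ a ∈ e, S.M.pin a) {π : Reg S.A} (hπ : t.Pc true e π) {f : A₀ ↪ S.A} (N : ML (S.M.res f) l)
    {a : S.X.M → Ext S.X.E} (hf : ↑e ⊆ range f) (ha : Cs S.X.I 2 (t.V π) a)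
    (hx : Ex S.X.I (t.op π) (Ln.F S.X.I ⟨N.p, 0⟩ - a)) :
    ∃ K, IsCompact K ∧ K ⊆ S.M.sys.U π ∩ (S.M.sys.w t.h).sd true ∧ RL S.X.I K a := by
  rcases (t.V π).eq_empty_or_nonempty with k | ⟨x₀, ⟨x1, x2⟩, -⟩
  · exact ⟨∅, isCompact_empty, empty_subset _, rl_zero (k ▸ ha)⟩
  have := S.M.con
  have f0 : t.IH.f 0 = y₀.a := congrFun ht.hf0.1 0
  have f1 : t.IH.f 1 = y₀.h := congrFun ht.hf0.1 1
  have g0 : t.IH.f' 0 = t.a := congrFun ht.hf0.2 0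
  have g1 : t.IH.f' 1 = t.h := congrFun ht.hf0.2 1
  have ah : (S.M.sys.w t.a).band ⊆ (S.M.sys.w t.h).sd false := by
    rw [← g0, ← g1]; exact band_tr t.IH (by rw [f0, f1]; exact hy.rev.1)
  have zh : HZ (S.M.bn t.h).Y.I 1 (univ : Set (S.M.bn t.h).Y.M) ∧ Zh (S.M.bn t.h).Y := by
    have k : HZ (y₀.M.bn y₀.h).Y.I 1 (univ : Set (y₀.M.bn y₀.h).Y.M) ∧ Zh (y₀.M.bn y₀.h).Y :=
      ⟨hy.qhs _ (.inl rfl) 1 (.inl rfl), hy.zhs⟩
    rw [← f1] at k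
    rw [← g1]
    exact ⟨hz_iso k.1 (t.IH.g 1), k.2.iso (t.IH.g 1)⟩
  have c1 : S.M.sys.Cell (insert t.h ↑(insert t.a e)) := hc.mono (by
    rw [Finset.coe_insert]
    exact insert_subset (.inr ht.fz.2.1) (insert_subset (.inr ht.fz.1) subset_union_left))
  have c0 := c1.mono (subset_insert _ _)
  obtain ⟨ρ, hρ, hx₀⟩ := Sys.exists_piece c1 (x := x₀) fun k => by
    rw [Sys.cores, biUnion_insert] at k
    exact k.elim (fun k => k _ x2) fun k => disjoint_left.1 (hπ.1.disjoint_cores c0) x1 k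
  have s : ∀ a ∈ insert t.h (↑(insert t.a e) : Set S.A), ∀ b, x₀ ∈ (S.M.sys.w a).sd b →
      S.M.sys.U ρ ⊆ (S.M.sys.w a).sd b := fun a ha b hb => by
    obtain ⟨b', k⟩ := hρ.side c1 ha
    rwa [(S.M.sys.w a).sd_inj hb (k hx₀)]
  have s1 : S.M.sys.U ρ ⊆ S.M.sys.U π ∩ (S.M.sys.w t.h).sd true := fun x hx =>
    ⟨fun a b k => s a (.inr (hπ.1.bd_subset (Sys.mem_bd_of k))) b (x1 a b k) hx, s _ (.inl rfl) _ x2 hx⟩
  have s2 : t.V π ⊆ S.M.sys.U ρ := fun x hx a b k => by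
    rcases hρ.bd_subset (Sys.mem_bd_of k) with rfl | m
    · rw [(S.M.sys.w t.h).sd_inj (hx₀ _ b k) x2]; exact hx.1.2
    · obtain ⟨b', k'⟩ := hπ.1.side c0 m
      rw [(S.M.sys.w a).sd_inj (hx₀ a b k) (k' x1)]; exact k' hx.1.1
  refine (rl_reg hρ.toIsReg N.ok (fun a b k => ?_) (ha.mono s2) (hx.mono fun x hx a b k => ?_)).imp
    fun K k => ⟨k.1, k.2.1.trans s1, k.2.2⟩
  · rcases hρ.bd_subset (Sys.mem_bd_of k) with rfl | m
    · exact ⟨zh.1, zh.2.tv N.ok⟩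
    rcases Finset.mem_insert.1 m with rfl | m
    · obtain ⟨z, hz⟩ := (S.M.sys.w t.a).ne b
      exact ((S.M.sys.w t.h).not_mem_sd (s1 (hρ.adj _ b k hz)).2 (ah hz.1)).elim
    · obtain ⟨a, rfl⟩ := hf m
      exact ⟨hz_rnd (S.M.rnd _ (hp _ m)), tv_pin N (a := a) (hp _ m)⟩
  · rcases eq_or_ne a t.a with rfl | n
    · simp at k
    · exact (s1 hx).1 a b (by rwa [update_of_ne n] at k)

/-- `Sb84.ChrStmt`, unfolded -/
theorem chr0 (hy : y₀.OK) (ht : t.OK R c) {d : ℕ} (hc : Br55.CN S d c) {i : S.L} {σ e : Finset S.A}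
    (h0 : c i σ ≠ 0) (he : e ⊆ σ) (hp : ∀ a ∈ e, S.M.pin a) {π : Reg S.A} (hπ : t.Pc true e π)
    {v : S.X.M → Ext S.X.E} (h : ∀ K a, IsCompact K → K ⊆ S.M.sys.U π ∩ (S.M.sys.w t.h).sd true →
      RL S.X.I K a → ∃ n : ℤ, Dr59.ip S.X.I S.M.o (Ln.F S.X.I ⟨(S.N i).p, 0⟩ + v) a +
        Dr59.ip S.X.I S.M.o a a = 2 * n * (2 * Real.pi) ^ 2) : S.Chr i e (t.op π) (t.V π) v :=
  fun _ _ _ _ _ _ N a hf _ ha hx =>
    let ⟨K, k1, k2, k3⟩ := rl_chr hy ht ((hc.ok.cell i σ (hc.cl.mem i σ h0).1).1.mono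
      (union_subset_union_left _ he)) hp hπ N hf ha hx
    h K a k1 k2 k3

end Crest.Agent.X212.Chr96
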